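import Vale.Agent.P036.Final

open Vale.Agent.P036

theorem Vale.Agent.Results.P036.Polynomial.result :
    (∃ c : ℝ, 0 < c ∧ ∃ n0 : ℕ, ∀ n ≥ n0, (n : ℝ) ^ (-2 + c) ≤ Delta n) ∧
    ¬ (∀ ε : ℝ, 0 < ε → ∃ (C : ℝ) (n0 : ℕ), ∀ n ≥ n0, Delta n ≤ C * (n : ℝ) ^ (-2 + ε)) :=
  ⟨lower, not_Q1⟩
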